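import Vale.Agent.P272.K.AMP.QH.Boch

/-! AMP Steps 2-4: definitions. `B = G^{-1/(n-1)}`, `Q = |∂B|²/B`, `H = ∂∂̄B - Q g`. -/

open scoped Manifold ContDiff ComplexOrder Topology
open Complex Filter Set

set_option linter.all false

noncomputable section

namespace Vale.Agent.P272.K.AMP

open Vale.Agent.P272.K

variable {n : ℕ} {X : Type*} [TopologicalSpace X] [ChartedSpace (Cm n) X]

/-- `Q = |∂B|² / B` -/
def Qf (g : Chart n X → Cm n → Matrix (Fin n) (Fin n) ℂ) (B : X → ℝ) (x : X) : ℝ :=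
  gradX g B B x / B x

/-- `H = ∂∂̄B - Q g` -/
def Hf (g : Chart n X → Cm n → Matrix (Fin n) (Fin n) ℂ) (B : X → ℝ) (e : Chart n X) (z : Cm n) :
    Matrix (Fin n) (Fin n) ℂ := hess B e z - ((Qf g B (e.symm z) : ℝ) : ℂ) • g e z

/-- the function `B = G^{-1/(n-1)}` of the regularised pole `G`, `G - Δ G = 1 + f₀` -/
structure Pole (g : Chart n X → Cm n → Matrix (Fin n) (Fin n) ℂ) (B f0 : X → ℝ) (K : ℝ) :
    Prop where
  smB : SmoothFn (n := n) B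
  smf : SmoothFn (n := n) f0
  pos : ∀ x, 0 < B x
  le_one : ∀ x, B x ≤ 1
  f0_nonneg : ∀ x, 0 ≤ f0 x
  eq : ∀ x, lapX g B x = n * Qf g B x - B x / ((n : ℝ) - 1) + (1 + f0 x) * B x ^ n / ((n : ℝ) - 1)
  f0_le : ∀ x, f0 x * B x ^ n ≤ K
  q_le : ∀ x, x ∈ tsupport f0 → Qf g B x ≤ K

end Vale.Agent.P272.K.AMP
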