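import Vale.Agent.P272.K.AMP.Calc
import Vale.Agent.P272.K.C2.Wirt
import Vale.Agent.P272.K.AMP.QH.Defs

/-! AMP Steps 2-4: the function `B = G^{-1/(n-1)}`. -/

open scoped Manifold ContDiff ComplexOrder Topology
open Complex Filter Set

set_option linter.all false

noncomputable section

namespace Vale.Agent.P272.K.AMP

open Vale.Agent.P272.K

variable {n : ℕ} {X : Type*} [TopologicalSpace X] [ChartedSpace (Cm n) X]

/-- `B = G^{-1/(n-1)}` -/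
def Bof (n : ℕ) {X : Type*} (G : X → ℝ) (x : X) : ℝ := G x ^ (-(1 / ((n : ℝ) - 1)))

section chain
variable {g : Chart n X → Cm n → Matrix (Fin n) (Fin n) ℂ} {u v : X → ℝ} {x : X}

/-- chain rule for the Laplacian, `HasDerivAt` form -/
theorem lapX_comp_hasDerivAt {φ φ₁ : ℝ → ℝ} {φ₂ : ℝ} (hu : SmoothFn (n := n) u)
    (hφ : ∀ᶠ s in 𝓝 (u x), HasDerivAt φ (φ₁ s) s) (hφ₁ : HasDerivAt φ₁ φ₂ (u x)) :
    lapX g (fun y => φ (u y)) x = φ₁ (u x) * lapX g u x + φ₂ * gradX g u u x := by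
  have hx := at_chartAt (n := n) x
  have hs : (chartAt (Cm n) x).symm (chartAt (Cm n) x x) = x :=
    (chartAt (Cm n) x).left_inv hx.2
  have hh : hess (fun y => φ (u y)) (chartAt (Cm n) x) (chartAt (Cm n) x x) =
      ((φ₁ (u x) : ℝ) : ℂ) • hess u (chartAt (Cm n) x) (chartAt (Cm n) x x)
        + ((φ₂ : ℝ) : ℂ) • dd u u (chartAt (Cm n) x) (chartAt (Cm n) x x) := by
    ext i j
    have h := C2.cHess_comp (ψ := φ) (ψ₁ := φ₁) (ψ₂ := φ₂)
      (u := fun z => u ((chartAt (Cm n) x).symm z)) (z := chartAt (Cm n) x x)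
      (by rw [hs]; exact hφ) (by rw [hs]; exact hφ₁) ((hu _ x hx).of_le (by norm_cast)) i j
    simp only [hs] at h
    exact h
  rw [lapX_def', hh, tr_add, tr_smul, tr_smul]; rfl

/-- chain rule for the gradient pairing, `HasDerivAt` form -/
theorem gradX_comp_hasDerivAt {φ ψ : ℝ → ℝ} {a b : ℝ} (hu : SmoothFn (n := n) u)
    (hv : SmoothFn (n := n) v) (hφ : HasDerivAt φ a (u x)) (hψ : HasDerivAt ψ b (v x)) :
    gradX g (fun y => φ (u y)) (fun y => ψ (v y)) x = a * b * gradX g u v x := by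
  rw [gradX_comp_left hφ.differentiableAt hu, gradX_comp_right hψ.differentiableAt hv,
    hφ.deriv, hψ.deriv, mul_assoc]

end chain

section pow
variable {y : ℝ}

lemma conv_m_pos (hn : 2 ≤ n) : (1 : ℝ) ≤ (n : ℝ) - 1 := by
  have : (2 : ℝ) ≤ n := by exact_mod_cast hn
  linarith

lemma conv_p_mul_n (hn : 2 ≤ n) : -(1 / ((n : ℝ) - 1)) * n = -(1 / ((n : ℝ) - 1)) - 1 := by
  have h := conv_m_pos hn
  have h' : (n : ℝ) - 1 ≠ 0 := by linarith
  field_simp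
  ring

lemma rpow_pow_n (hn : 2 ≤ n) (hy : 0 < y) :
    (y ^ (-(1 / ((n : ℝ) - 1)))) ^ n = y ^ (-(1 / ((n : ℝ) - 1)) - 1) := by
  rw [← Real.rpow_mul_natCast hy.le, conv_p_mul_n hn]

end pow

variable {g : Chart n X → Cm n → Matrix (Fin n) (Fin n) ℂ} {G f0 : X → ℝ}

section basic
omit [TopologicalSpace X] [ChartedSpace (Cm n) X]

lemma Bof_pos (h1 : ∀ x, 1 ≤ G x) (x : X) : 0 < Bof n G x :=
  Real.rpow_pos_of_pos (lt_of_lt_of_le one_pos (h1 x)) _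

lemma Bof_le_one (hn : 2 ≤ n) (h1 : ∀ x, 1 ≤ G x) (x : X) : Bof n G x ≤ 1 := by
  apply Real.rpow_le_one_of_one_le_of_nonpos (h1 x)
  have := conv_m_pos hn
  have : 0 < 1 / ((n : ℝ) - 1) := by positivity
  linarith

/-- `B^n = B / G` -/
lemma Bof_pow_n (hn : 2 ≤ n) (h1 : ∀ x, 1 ≤ G x) (x : X) : Bof n G x ^ n = Bof n G x / G x := by
  have hy : 0 < G x := lt_of_lt_of_le one_pos (h1 x)
  unfold Bof
  rw [rpow_pow_n hn hy, Real.rpow_sub_one hy.ne']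

/-- `G = B^{-(n-1)}` -/
lemma G_eq_Bof (hn : 2 ≤ n) (h1 : ∀ x, 1 ≤ G x) (x : X) : G x = (Bof n G x)⁻¹ ^ (n - 1) := by
  have hy : 0 < G x := lt_of_lt_of_le one_pos (h1 x)
  have hB := Bof_pos (n := n) h1 x
  have h := Bof_pow_n hn h1 x
  have hn' : n = (n - 1) + 1 := by omega
  rw [hn', pow_succ, ← hn'] at h
  have h2 : Bof n G x ^ (n - 1) = (G x)⁻¹ := by
    have : Bof n G x ^ (n - 1) * Bof n G x = (G x)⁻¹ * Bof n G x := by rw [h]; ring
    exact mul_right_cancel₀ hB.ne' this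
  rw [inv_pow, h2, inv_inv]

/-- `G^{n/(n-1)} = B^{-n}` -/
lemma G_rpow_eq (hn : 2 ≤ n) (h1 : ∀ x, 1 ≤ G x) (x : X) :
    G x ^ ((n : ℝ) / ((n : ℝ) - 1)) = (Bof n G x)⁻¹ ^ n := by
  have hy : 0 < G x := lt_of_lt_of_le one_pos (h1 x)
  have hm := conv_m_pos hn
  have hm' : (n : ℝ) - 1 ≠ 0 := by linarith
  rw [inv_pow]
  unfold Bof
  rw [rpow_pow_n hn hy, ← Real.rpow_neg hy.le]
  congr 1
  field_simp
  ring

/-- `G^{1/(n-1)} = B⁻¹` -/
lemma G_rpow_one_div (h1 : ∀ x, 1 ≤ G x) (x : X) :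
    G x ^ (1 / ((n : ℝ) - 1)) = (Bof n G x)⁻¹ := by
  have hy : 0 < G x := lt_of_lt_of_le one_pos (h1 x)
  unfold Bof
  rw [Real.rpow_neg hy.le, inv_inv]

/-- `G^{2+1/(n-1)} = G² B⁻¹` -/
lemma G_rpow_two_add (h1 : ∀ x, 1 ≤ G x) (x : X) :
    G x ^ (2 + 1 / ((n : ℝ) - 1)) = G x ^ 2 * (Bof n G x)⁻¹ := by
  have hy : 0 < G x := lt_of_lt_of_le one_pos (h1 x)
  rw [Real.rpow_add hy, G_rpow_one_div h1, Real.rpow_two]

end basic

lemma smoothFn_Bof (hG : SmoothFn (n := n) G) (h1 : ∀ x, 1 ≤ G x) :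
    SmoothFn (n := n) (Bof n G) :=
  sm_rpow hG (fun x => lt_of_lt_of_le one_pos (h1 x)) _

lemma hasDerivAt_rpow' {y : ℝ} (hy : 0 < y) (p : ℝ) :
    HasDerivAt (fun s : ℝ => s ^ p) (p * y ^ (p - 1)) y :=
  Real.hasDerivAt_rpow_const (Or.inl hy.ne')

lemma gradX_Bof (hG : SmoothFn (n := n) G) (h1 : ∀ x, 1 ≤ G x) (x : X) :
    gradX g (Bof n G) (Bof n G) x =
      (1 / ((n : ℝ) - 1)) ^ 2 * (Bof n G x / G x) ^ 2 * gradX g G G x := by
  have hy : 0 < G x := lt_of_lt_of_le one_pos (h1 x)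
  have h := gradX_comp_hasDerivAt (g := g) hG hG (hasDerivAt_rpow' hy (-(1 / ((n : ℝ) - 1))))
    (hasDerivAt_rpow' hy (-(1 / ((n : ℝ) - 1))))
  have e : gradX g (Bof n G) (Bof n G) x = gradX g (fun y => G y ^ (-(1 / ((n : ℝ) - 1))))
    (fun y => G y ^ (-(1 / ((n : ℝ) - 1)))) x := rfl
  rw [e, h, Real.rpow_sub_one hy.ne']
  unfold Bof
  ring

lemma Qf_Bof (hG : SmoothFn (n := n) G) (h1 : ∀ x, 1 ≤ G x) (x : X) :
    Qf g (Bof n G) x = (1 / ((n : ℝ) - 1)) ^ 2 * (Bof n G x / G x ^ 2) * gradX g G G x := by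
  have hy : 0 < G x := lt_of_lt_of_le one_pos (h1 x)
  have hB := Bof_pos (n := n) h1 x
  unfold Qf
  rw [gradX_Bof hG h1, div_pow]
  field_simp

/-- `|∂G|² = (n-1)² Q G² B⁻¹` -/
lemma gradX_G_eq (hn : 2 ≤ n) (hG : SmoothFn (n := n) G) (h1 : ∀ x, 1 ≤ G x) (x : X) :
    gradX g G G x = ((n : ℝ) - 1) ^ 2 * Qf g (Bof n G) x * (G x ^ 2 * (Bof n G x)⁻¹) := by
  have hy : 0 < G x := lt_of_lt_of_le one_pos (h1 x)
  have hB := Bof_pos (n := n) h1 x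
  have hm := conv_m_pos hn
  have hm' : (n : ℝ) - 1 ≠ 0 := by linarith
  rw [Qf_Bof hG h1]
  field_simp

lemma lapX_Bof (hn : 2 ≤ n) (hG : SmoothFn (n := n) G) (h1 : ∀ x, 1 ≤ G x) (x : X)
    (heq : G x - lapX g G x = 1 + f0 x) :
    lapX g (Bof n G) x = n * Qf g (Bof n G) x - Bof n G x / ((n : ℝ) - 1)
      + (1 + f0 x) * Bof n G x ^ n / ((n : ℝ) - 1) := by
  have hy : 0 < G x := lt_of_lt_of_le one_pos (h1 x)
  have hB := Bof_pos (n := n) h1 x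
  have hm := conv_m_pos hn
  have hm' : (n : ℝ) - 1 ≠ 0 := by linarith
  set p : ℝ := -(1 / ((n : ℝ) - 1)) with hp
  have hev : ∀ᶠ s in 𝓝 (G x), HasDerivAt (fun s : ℝ => s ^ p) ((fun s => p * s ^ (p - 1)) s) s := by
    filter_upwards [(isOpen_Ioi (a := (0 : ℝ))).mem_nhds hy] with s hs using hasDerivAt_rpow' hs p
  have h2 : HasDerivAt (fun s : ℝ => p * s ^ (p - 1)) (p * ((p - 1) * G x ^ (p - 1 - 1))) (G x) :=
    (hasDerivAt_rpow' hy (p - 1)).const_mul p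
  have h := lapX_comp_hasDerivAt (g := g) hG hev h2
  have e : lapX g (Bof n G) x = lapX g (fun y => G y ^ p) x := rfl
  rw [e, h, Qf_Bof hG h1, Bof_pow_n hn h1]
  have hl : lapX g G x = G x - 1 - f0 x := by linarith
  rw [hl]
  rw [Real.rpow_sub_one hy.ne' (p - 1), Real.rpow_sub_one hy.ne' p]
  have hBp : G x ^ p = Bof n G x := rfl
  rw [hBp, hp]
  generalize Bof n G x = b
  field_simp
  ring

/-- conversion of the output of Step 1 into the structure `Pole` -/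
theorem pole_Bof (hn : 2 ≤ n) (hG : SmoothFn (n := n) G) (h1 : ∀ x, 1 ≤ G x)
    (hf : SmoothFn (n := n) f0) (hf0 : ∀ x, 0 ≤ f0 x) (heq : ∀ x, G x - lapX g G x = 1 + f0 x)
    {K : ℝ} (hK1 : ∀ x, f0 x ≤ K * G x ^ ((n : ℝ) / ((n : ℝ) - 1)))
    (hK2 : ∀ x ∈ tsupport f0, gradX g G G x ≤ K * G x ^ (2 + 1 / ((n : ℝ) - 1))) :
    Pole g (Bof n G) f0 K where
  smB := smoothFn_Bof hG h1
  smf := hf
  pos := Bof_pos h1
  le_one := Bof_le_one hn h1
  f0_nonneg := hf0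
  eq x := lapX_Bof hn hG h1 x (heq x)
  f0_le x := by
    have hB := Bof_pos (n := n) h1 x
    have h := hK1 x
    rw [G_rpow_eq hn h1, inv_pow, ← div_eq_mul_inv, le_div_iff₀ (by positivity)] at h
    exact h
  q_le x hx := by
    have hy : 0 < G x := lt_of_lt_of_le one_pos (h1 x)
    have hB := Bof_pos (n := n) h1 x
    have hm := conv_m_pos hn
    have hm' : (n : ℝ) - 1 ≠ 0 := by linarith
    have hK0 : 0 ≤ K := by
      by_contra hc
      push Not at hc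
      have h2 : 0 < G x ^ ((n : ℝ) / ((n : ℝ) - 1)) := Real.rpow_pos_of_pos hy _
      have h3 := hK1 x
      have h4 := hf0 x
      nlinarith
    have h := hK2 x hx
    rw [G_rpow_two_add h1, gradX_G_eq hn hG h1] at h
    have h5 : 0 < G x ^ 2 * (Bof n G x)⁻¹ := by positivity
    have h6 : ((n : ℝ) - 1) ^ 2 * Qf g (Bof n G) x ≤ K := le_of_mul_le_mul_right h h5
    have h7 : (1 : ℝ) ≤ ((n : ℝ) - 1) ^ 2 := by nlinarith
    by_cases hq : Qf g (Bof n G) x ≤ 0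
    · linarith
    · push Not at hq
      nlinarith

/-- backwards: the gradient bound for `G` -/
theorem gradX_G_le (hn : 2 ≤ n) (hG : SmoothFn (n := n) G) (h1 : ∀ x, 1 ≤ G x) {x : X} {K : ℝ}
    (hQ : Qf g (Bof n G) x ≤ K) :
    gradX g G G x ≤ ((n : ℝ) - 1) ^ 2 * K * G x ^ (2 + 1 / ((n : ℝ) - 1)) := by
  have hy : 0 < G x := lt_of_lt_of_le one_pos (h1 x)
  have hB := Bof_pos (n := n) h1 x
  have hm := conv_m_pos hn
  rw [gradX_G_eq hn hG h1, G_rpow_two_add h1]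
  have h5 : 0 < G x ^ 2 * (Bof n G x)⁻¹ := by positivity
  exact mul_le_mul_of_nonneg_right (mul_le_mul_of_nonneg_left hQ (by positivity)) h5.le

end Vale.Agent.P272.K.AMP
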