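import Vale.Agent.P272.K.AMP.QH.Point
import Vale.Agent.P272.K.AMP.QH.Conv
import Vale.Agent.P272.K.AMP.Green2

/-!
# AMP Step 4: the weighted integral bound of `|H|²`
-/

open scoped Manifold ContDiff ComplexOrder Topology
open Complex Filter Set

set_option linter.all false

noncomputable section

namespace Vale.Agent.P272.K.AMP

open Vale.Agent.P272.K

lemma hasDerivAt_invpow (k : ℕ) {t : ℝ} (ht : t ≠ 0) :
    HasDerivAt (fun s : ℝ => s⁻¹ ^ k) (-(k : ℝ) * t⁻¹ ^ (k + 1)) t := by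
  have h := (hasDerivAt_inv ht).pow k
  refine h.congr_deriv ?_
  cases k with
  | zero => simp
  | succ m =>
    simp only [Nat.add_sub_cancel]
    push_cast
    have : (t ^ 2)⁻¹ = t⁻¹ ^ 2 := by rw [inv_pow]
    rw [this]
    ring

lemma alg4 {S G LQ gQG Q F s gFG c κ K : ℝ} (hc : 0 ≤ c) (hQ : 0 ≤ Q) (hQk : Q ≤ κ)
    (hF : 0 ≤ F) (hFk : F ≤ c * (1 + K)) (hG : 0 ≤ G) (hs : 0 ≤ s)
    (h2 : S - (3 * c + 1) * Q * G + Q * (c * s) + 2 * (-c * gFG) + 2 * -gQG ≤ G * LQ) :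
    S ≤ G * LQ + 2 * gQG + Q * (G - s) + 2 * c * (F * (G - s) + gFG) +
      (κ + 2 * c ^ 2 * (1 + K)) * s + 3 * c * κ * G := by
  have t1 : 0 ≤ (κ - Q) * s := mul_nonneg (by linarith) hs
  have t2 : 0 ≤ c * ((c * (1 + K) - F) * s) := mul_nonneg hc (mul_nonneg (by linarith) hs)
  have t3 : 0 ≤ c * ((κ - Q) * G) := mul_nonneg hc (mul_nonneg (by linarith) hG)
  have t4 : 0 ≤ c * (F * G) := mul_nonneg hc (mul_nonneg hF hG)
  have t5 : 0 ≤ c * (Q * s) := mul_nonneg hc (mul_nonneg hQ hs)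
  linarith

variable {n : ℕ} {X : Type*} [TopologicalSpace X] [ChartedSpace (Cm n) X]
  [IsManifold 𝓘(ℂ, Cm n) ω X]

/-- `G = B^{-(n-1)}` -/
def Gf (n : ℕ) {X : Type*} (B : X → ℝ) (x : X) : ℝ := (B x)⁻¹ ^ (n - 1)

/-- `|H|²` as a function on `X` -/
def Sf (g : Chart n X → Cm n → Matrix (Fin n) (Fin n) ℂ) (B : X → ℝ) (x : X) : ℝ :=
  atX (sqE g (Hf g B)) x

section sq

variable {g : Chart n X → Cm n → Matrix (Fin n) (Fin n) ℂ} {B f0 : X → ℝ} {K : ℝ}

omit [IsManifold 𝓘(ℂ, Cm n) ω X] in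
lemma contDiffAt_sqE (hg : IsHermitian g) (hB : SmoothFn (n := n) B) {e : Chart n X} {x : X}
    (hx : At e x) : ContDiffAt ℝ ∞ (sqE g (hess B) e) (e x) := by
  have hgi : ∀ i j, ContDiffAt ℝ ∞ (fun y => (g e y)⁻¹ i j) (e x) :=
    fun i j => contDiffAt_inv (hg.smooth e x hx) (hg.posDef e x hx).det_pos.ne' i j
  have hb : ∀ i j, ContDiffAt ℝ ∞ (fun y => hess B e y i j) (e x) :=
    fun i j => contDiffAt_cHess (hB e x hx) (le_of_eq rfl) i j
  have h1 : ∀ i j, ContDiffAt ℝ ∞ (fun y => ((g e y)⁻¹ * hess B e y) i j) (e x) := by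
    intro i j
    simp only [Matrix.mul_apply]
    exact ContDiffAt.sum fun a _ => (hgi i a).mul (hb a j)
  have h2 : ContDiffAt ℝ ∞ (fun y => ((g e y)⁻¹ * hess B e y * ((g e y)⁻¹ * hess B e y)).trace)
      (e x) := by
    simp only [Matrix.trace, Matrix.diag_apply]
    refine ContDiffAt.sum fun i _ => ?_
    simp only [Matrix.mul_apply (M := (g e _)⁻¹ * hess B e _)]
    exact ContDiffAt.sum fun j _ => (h1 i j).mul (h1 j i)
  exact (Complex.reCLM.contDiff.contDiffAt).comp (e x) h2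

lemma sqE_hess_eq (hg : IsHermitian g) (hB : SmoothFn (n := n) B) {e e' : Chart n X} {x : X}
    (hx : At e x) (hx' : At e' x) : sqE g (hess B) e (e x) = sqE g (hess B) e' (e' x) := by
  unfold sqE
  rw [trace_inv2 hg.isForm (isForm_hess hB) (isForm_hess hB) hx hx']

lemma sqE_Hf_eq (hg : IsHermitian g) (hB : SmoothFn (n := n) B) {e e' : Chart n X} {x : X}
    (hx : At e x) (hx' : At e' x) : sqE g (Hf g B) e (e x) = sqE g (Hf g B) e' (e' x) := by
  rw [sqE_Hf hg hx, sqE_Hf hg hx', sqE_hess_eq hg hB hx hx', lapE_eq hg hB hx hx']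

lemma Sf_eq (hg : IsHermitian g) (hB : SmoothFn (n := n) B) {e : Chart n X} {x : X}
    (hx : At e x) : Sf g B x = sqE g (Hf g B) e (e x) :=
  sqE_Hf_eq hg hB (at_chartAt x) hx

lemma Pole.smS (hg : IsHermitian g) (P : Pole g B f0 K) : SmoothFn (n := n) (Sf g B) := by
  refine smoothFn_atX (fun e x hx => ?_) fun e e' x h h' => sqE_Hf_eq hg P.smB h h'
  have h1 := contDiffAt_sqE hg P.smB hx
  have h2 := P.smQ hg e x hx
  have h3 := smoothFn_lapX hg P.smB e x hx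
  have h4 : ContDiffAt ℝ ∞ (fun z => sqE g (hess B) e z -
      2 * Qf g B (e.symm z) * lapX g B (e.symm z) + n * Qf g B (e.symm z) ^ 2) (e x) :=
    (h1.sub ((contDiffAt_const.mul h2).mul h3)).add (contDiffAt_const.mul (h2.pow 2))
  refine h4.congr_of_eventuallyEq ?_
  filter_upwards [hx.nhds_target] with z hz
  have hz' := At.of_target hx.1 hz
  have h5 := sqE_Hf (B := B) hg hz'
  rw [← lapX_eq hg P.smB hz', e.right_inv hz] at h5
  exact h5

end sq

section G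

variable {g : Chart n X → Cm n → Matrix (Fin n) (Fin n) ℂ} {B f0 : X → ℝ} {K : ℝ}

omit [IsManifold 𝓘(ℂ, Cm n) ω X] in
lemma Pole.smG (P : Pole g B f0 K) : SmoothFn (n := n) (Gf n B) := by
  refine sm_comp (φ := fun t : ℝ => t⁻¹ ^ (n - 1)) (fun x => ?_) P.smB
  exact (contDiffAt_id.inv (P.pos x).ne').pow _

omit [IsManifold 𝓘(ℂ, Cm n) ω X] in
lemma Pole.grad_G (hn : 2 ≤ n) (P : Pole g B f0 K) (v : X → ℝ) (x : X) :
    gradX g (Gf n B) v x = -((n : ℝ) - 1) * (B x)⁻¹ ^ n * gradX g B v x := by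
  have h := hasDerivAt_invpow (n - 1) (P.pos x).ne'
  have h1 : gradX g (Gf n B) v x = gradX g (fun y => (fun s : ℝ => s⁻¹ ^ (n - 1)) (B y)) v x := rfl
  rw [h1, gradX_comp_left h.differentiableAt P.smB, h.deriv]
  have h2 : n - 1 + 1 = n := by omega
  rw [h2]
  have h3 : ((n - 1 : ℕ) : ℝ) = (n : ℝ) - 1 := by
    rw [Nat.cast_sub (by omega)]; simp
  rw [h3]

omit [IsManifold 𝓘(ℂ, Cm n) ω X] in
lemma Pole.lap_G (hn : 2 ≤ n) (P : Pole g B f0 K) (x : X) :
    lapX g (Gf n B) x = Gf n B x - (1 + f0 x) := by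
  have hm : (0 : ℝ) < (n : ℝ) - 1 := by
    have : (2 : ℝ) ≤ n := by exact_mod_cast hn
    linarith
  have h0 := (P.pos x).ne'
  have h3 : ((n - 1 : ℕ) : ℝ) = (n : ℝ) - 1 := by
    rw [Nat.cast_sub (by omega)]; simp
  have h2 : n - 1 + 1 = n := by omega
  have hφ : ∀ᶠ s in 𝓝 (B x), HasDerivAt (fun s : ℝ => s⁻¹ ^ (n - 1))
      (-((n : ℝ) - 1) * s⁻¹ ^ n) s := by
    filter_upwards [isOpen_ne.mem_nhds h0] with s hs
    have h := hasDerivAt_invpow (n - 1) hs
    rwa [h2, h3] at h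
  have hφ' : HasDerivAt (fun s : ℝ => -((n : ℝ) - 1) * s⁻¹ ^ n)
      (-((n : ℝ) - 1) * (-(n : ℝ) * (B x)⁻¹ ^ (n + 1))) (B x) :=
    (hasDerivAt_invpow n h0).const_mul _
  have h := lapX_comp_hasDerivAt (g := g) P.smB hφ hφ'
  have h1 : lapX g (Gf n B) x = lapX g (fun y => (fun s : ℝ => s⁻¹ ^ (n - 1)) (B y)) x := rfl
  rw [h1, h, P.eq x, P.N_eq x, Gf]
  have h4 : (B x)⁻¹ ^ n = (B x)⁻¹ ^ (n - 1) * (B x)⁻¹ := by rw [← pow_succ, h2]
  have h5 : (B x)⁻¹ ^ (n + 1) = (B x)⁻¹ ^ (n - 1) * (B x)⁻¹ * (B x)⁻¹ := by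
    rw [← pow_succ, ← pow_succ, h2]
  have h6 : (B x) ^ n = (B x) ^ (n - 1) * B x := by rw [← pow_succ, h2]
  have h7 : (B x)⁻¹ ^ (n - 1) * (B x) ^ (n - 1) = 1 := by
    rw [← mul_pow, inv_mul_cancel₀ h0, one_pow]
  rw [h4, h5, h6]
  have h8 : (B x)⁻¹ * B x = 1 := inv_mul_cancel₀ h0
  have h9 : (n : ℝ) - 1 ≠ 0 := hm.ne'
  set b := B x
  set p := b⁻¹ ^ (n - 1)
  set q := b ^ (n - 1)
  set r := b⁻¹
  set m := (n : ℝ) - 1 with hmdef
  have e1 : -m * (p * r) * (↑n * Qf g B x - b / m + (1 + f0 x) * (q * b) / m) +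
      -m * (-(n : ℝ) * (p * r * r)) * (Qf g B x * b) =
      -m * p * r * n * Qf g B x + p * (r * b) * (m / m) - (p * q) * (r * b) * (1 + f0 x) * (m / m)
      + m * n * p * r * (r * b) * Qf g B x := by
    field_simp
    ring
  rw [e1, h8, div_self h9, h7]
  ring

end G

section main

variable [T2Space X] [CompactSpace X]
  {g : Chart n X → Cm n → Matrix (Fin n) (Fin n) ℂ} {B f0 : X → ℝ} {K : ℝ}

/-- `∫ (u Δv + <∂u, ∂v>) = 0` -/
lemma IX_div (hg : IsKahler g) {u v : X → ℝ} (hu : SmoothFn (n := n) u)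
    (hv : SmoothFn (n := n) v) : IX g (fun x => u x * lapX g v x + gradX g u v x) = 0 := by
  have hgH := hg.toIsHermitian
  have c1 : Continuous fun x => u x * lapX g v x :=
    (sm_continuous hu).mul (sm_continuous (smoothFn_lapX hgH hv))
  rw [IX_add hgH c1 (sm_continuous (smoothFn_gradX hgH hu hv)), IX_green_grad hg hu hv,
    neg_add_cancel]

lemma Pole.IX_G (hn : 2 ≤ n) (hg : IsKahler g) (P : Pole g B f0 K) :
    IX g (Gf n B) = IX g (fun x => 1 + f0 x) := by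
  have hgH := hg.toIsHermitian
  have h1 : Gf n B = fun x => (1 + f0 x) + lapX g (Gf n B) x := by
    funext x; rw [P.lap_G hn x]; ring
  have c1 : Continuous fun x => 1 + f0 x := continuous_const.add (sm_continuous P.smf)
  conv_lhs => rw [h1]
  rw [IX_add hgH c1 (sm_continuous (smoothFn_lapX hgH P.smG)), IX_lapX hg P.smG, add_zero]

/-- the constant of the Hessian bound -/
def Kh (n : ℕ) (K : ℝ) : ℝ :=
  Kq n K + 3 / ((n : ℝ) - 1) * Kq n K + 2 * (1 / ((n : ℝ) - 1)) ^ 2 * (1 + K)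

/-- **Step 4**: the Hessian bound. -/
theorem Pole.hess_bound (hn : 3 ≤ n) (hg : IsKahler g)
    (hR : ∀ e x, At e x →
      (-cHess (fun z => Real.log (g e z).det.re) (e x) + g e (e x)).PosSemidef)
    (P : Pole g B f0 K) :
    IX g (fun x => (B x)⁻¹ ^ n * Sf g B x) ≤ Kh n K * IX g (fun x => 1 + f0 x) := by
  have hgH := hg.toIsHermitian
  have hn3 : (3 : ℝ) ≤ n := by exact_mod_cast hn
  have hm : (0 : ℝ) < (n : ℝ) - 1 := by linarith
  have sQ := P.smQ hgH
  have sF := P.smF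
  have sG := P.smG
  have sS := P.smS hgH
  set c := 1 / ((n : ℝ) - 1) with hc
  have hc0 : 0 < c := by positivity
  set Q := Qf g B with hQ
  set F := Ff n B f0 with hF
  set G := Gf n B with hG
  have cQ := sm_continuous sQ
  have cF := sm_continuous sF
  have cG := sm_continuous sG
  have cS := sm_continuous sS
  have cB := sm_continuous P.smB
  have cf := sm_continuous P.smf
  have cBi : Continuous fun x => (B x)⁻¹ ^ n := (cB.inv₀ fun x => (P.pos x).ne').pow n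
  -- the three divergences
  set Z1 : X → ℝ := fun x => G x * lapX g Q x + gradX g G Q x with hZ1
  set Z2 : X → ℝ := fun x => Q x * lapX g G x + gradX g Q G x with hZ2
  set Z3 : X → ℝ := fun x => F x * lapX g G x + gradX g F G x with hZ3
  have cZ1 : Continuous Z1 := (cG.mul (sm_continuous (smoothFn_lapX hgH sQ))).add
    (sm_continuous (smoothFn_gradX hgH sG sQ))
  have cZ2 : Continuous Z2 := (cQ.mul (sm_continuous (smoothFn_lapX hgH sG))).add
    (sm_continuous (smoothFn_gradX hgH sQ sG))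
  have cZ3 : Continuous Z3 := (cF.mul (sm_continuous (smoothFn_lapX hgH sG))).add
    (sm_continuous (smoothFn_gradX hgH sF sG))
  -- the pointwise inequality
  have key : ∀ x, (B x)⁻¹ ^ n * Sf g B x ≤
      ((Z1 x + Z2 x) + 2 * c * Z3 x) + (Kq n K + 2 * c ^ 2 * (1 + K)) * (1 + f0 x)
        + 3 * c * Kq n K * G x := by
    intro x
    have hx := at_chartAt (n := n) x
    have h1 := P.ineq21 hg hR hx
    rw [← Sf_eq hgH P.smB hx] at h1
    have hb : 0 < B x := P.pos x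
    have hbi : 0 < (B x)⁻¹ ^ n := by positivity
    have h2 := mul_le_mul_of_nonneg_left h1 hbi.le
    have h31 : (3 / ((n : ℝ) - 1) + 1) = 3 * c + 1 := by rw [hc]; ring
    rw [h31] at h2
    have hBn : (B x)⁻¹ ^ n * B x = G x := by
      rw [hG, Gf]
      have h22 : n = (n - 1) + 1 := by omega
      conv_lhs => rw [h22, pow_succ]
      rw [mul_assoc, inv_mul_cancel₀ hb.ne', mul_one]
    have hBF : (B x)⁻¹ ^ n * F x = c * (1 + f0 x) := by
      rw [hF, Ff, hc]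
      have : (B x)⁻¹ ^ n * B x ^ n = 1 := by rw [← mul_pow, inv_mul_cancel₀ hb.ne', one_pow]
      calc (B x)⁻¹ ^ n * ((1 + f0 x) * B x ^ n / ((n : ℝ) - 1)) =
          ((B x)⁻¹ ^ n * B x ^ n) * ((1 + f0 x) / ((n : ℝ) - 1)) := by ring
        _ = _ := by rw [this]; ring
    have g1 : gradX g G Q x = -((n : ℝ) - 1) * (B x)⁻¹ ^ n * gradX g Q B x := by
      rw [P.grad_G (by omega), gradX_comm hgH.posDef B]
    have g2 : gradX g Q G x = -((n : ℝ) - 1) * (B x)⁻¹ ^ n * gradX g Q B x := by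
      rw [gradX_comm hgH.posDef Q, g1]
    have g3 : gradX g F G x = -((n : ℝ) - 1) * (B x)⁻¹ ^ n * gradX g F B x := by
      rw [gradX_comm hgH.posDef F, P.grad_G (by omega), gradX_comm hgH.posDef B]
    have g3' : (B x)⁻¹ ^ n * gradX g F B x = -c * gradX g F G x := by
      rw [g3, hc]; field_simp
    have lG := P.lap_G (by omega : 2 ≤ n) x
    have hq1 : Q x ≤ Kq n K := P.q_bound hn hg hR x
    have hq0 : 0 ≤ Q x := P.q_nonneg hgH x
    have hf0 := P.f0_nonneg x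
    have hG0 : 0 < G x := by rw [hG, Gf]; positivity
    have hF0 : 0 ≤ F x := by rw [hF, Ff]; positivity
    have hFb : F x ≤ c * (1 + K) := by
      have h1 := P.f0_le x
      have h2 : B x ^ n ≤ 1 := pow_le_one₀ hb.le (P.le_one x)
      rw [hF, Ff, hc, div_eq_mul_one_div, mul_comm]
      refine mul_le_mul_of_nonneg_left ?_ hc0.le
      nlinarith
    have eZ : Z1 x + Z2 x + 2 * c * Z3 x = G x * lapX g Q x + 2 * gradX g Q G x +
        Q x * (G x - (1 + f0 x)) + 2 * c * (F x * (G x - (1 + f0 x)) + gradX g F G x) := by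
      rw [hZ1, hZ2, hZ3]
      simp only
      rw [lG, g1, g2]
      ring
    rw [eZ]
    -- expand h2
    have e1 : (B x)⁻¹ ^ n * (B x * lapX g Q x) = G x * lapX g Q x := by rw [← mul_assoc, hBn]
    have e2 : (B x)⁻¹ ^ n * (Sf g B x - (3 * c + 1) * Q x * B x + Q x * F x +
        2 * gradX g F B x + (2 * (n : ℝ) - 2) * gradX g Q B x) =
        (B x)⁻¹ ^ n * Sf g B x - (3 * c + 1) * Q x * ((B x)⁻¹ ^ n * B x) +
        Q x * ((B x)⁻¹ ^ n * F x) + 2 * ((B x)⁻¹ ^ n * gradX g F B x) +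
        2 * (((n : ℝ) - 1) * (B x)⁻¹ ^ n * gradX g Q B x) := by ring
    rw [e1, e2, hBn, hBF, g3'] at h2
    have g2' : ((n : ℝ) - 1) * (B x)⁻¹ ^ n * gradX g Q B x = -gradX g Q G x := by rw [g2]; ring
    rw [g2'] at h2
    exact alg4 hc0.le hq0 hq1 hF0 hFb hG0.le (by linarith) h2
  have c1 : Continuous fun x => (B x)⁻¹ ^ n * Sf g B x := cBi.mul cS
  have cZ12 : Continuous fun x => Z1 x + Z2 x := cZ1.add cZ2
  have c3 : Continuous fun x => 2 * c * Z3 x := continuous_const.mul cZ3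
  have cZ : Continuous fun x => (Z1 x + Z2 x) + 2 * c * Z3 x := cZ12.add c3
  have cf1 : Continuous fun x => 1 + f0 x := continuous_const.add cf
  have cA : Continuous fun x => (Kq n K + 2 * c ^ 2 * (1 + K)) * (1 + f0 x) :=
    continuous_const.mul cf1
  have cG' : Continuous fun x => 3 * c * Kq n K * G x := continuous_const.mul cG
  have cR : Continuous fun x => ((Z1 x + Z2 x) + 2 * c * Z3 x) +
      (Kq n K + 2 * c ^ 2 * (1 + K)) * (1 + f0 x) := cZ.add cA
  have cR' : Continuous fun x => ((Z1 x + Z2 x) + 2 * c * Z3 x) +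
      (Kq n K + 2 * c ^ 2 * (1 + K)) * (1 + f0 x) + 3 * c * Kq n K * G x := cR.add cG'
  have h1 := IX_mono hgH c1 cR' key
  rw [IX_add hgH cR cG', IX_add hgH cZ cA, IX_add hgH cZ12 c3,
    IX_add hgH cZ1 cZ2, IX_const_mul, IX_const_mul, IX_const_mul, IX_div hg sG sQ,
    IX_div hg sQ sG, IX_div hg sF sG, P.IX_G (by omega) hg] at h1
  refine h1.trans (le_of_eq ?_)
  rw [Kh]
  have : 3 / ((n : ℝ) - 1) = 3 * c := by rw [hc]; ring
  rw [this]
  ring

end main

end Vale.Agent.P272.K.AMP
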