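import Vale.Agent.P272.K.AMP.QH.Defs
import Vale.Agent.P272.K.AMP.Calc

/-!
# AMP Steps 2, 3: the inequality for `ΔQ` and the gradient bound `Q ≤ C`
-/

open scoped Manifold ContDiff ComplexOrder Topology
open Complex Filter Set

set_option linter.all false

noncomputable section

namespace Vale.Agent.P272.K.AMP

open Vale.Agent.P272.K

variable {n : ℕ} {X : Type*} [TopologicalSpace X] [ChartedSpace (Cm n) X]

/-- the zeroth order term `F = (1 + f₀) Bⁿ / (n-1)` -/
def Ff (n : ℕ) {X : Type*} (B f0 : X → ℝ) (x : X) : ℝ := (1 + f0 x) * B x ^ n / ((n : ℝ) - 1)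

section alg

/-- `|A - q g|² = |A|² - 2 q tr A + n q²` -/
lemma sq_sub_smul {G A : Matrix (Fin n) (Fin n) ℂ} (hG : G.PosDef) (q : ℝ) :
    (G⁻¹ * (A - (q : ℂ) • G) * (G⁻¹ * (A - (q : ℂ) • G))).trace.re =
      (G⁻¹ * A * (G⁻¹ * A)).trace.re - 2 * q * (G⁻¹ * A).trace.re + n * q ^ 2 := by
  have h1 : G⁻¹ * G = 1 := Matrix.nonsing_inv_mul _ hG.det_pos.ne'.isUnit
  have h2 : G⁻¹ * (A - (q : ℂ) • G) = G⁻¹ * A - (q : ℂ) • (1 : Matrix (Fin n) (Fin n) ℂ) := by
    rw [Matrix.mul_sub, Matrix.mul_smul, h1]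
  have h3 : (G⁻¹ * A - (q : ℂ) • (1 : Matrix (Fin n) (Fin n) ℂ)) *
      (G⁻¹ * A - (q : ℂ) • (1 : Matrix (Fin n) (Fin n) ℂ)) =
      G⁻¹ * A * (G⁻¹ * A) - ((2 * q : ℝ) : ℂ) • (G⁻¹ * A) +
        ((q ^ 2 : ℝ) : ℂ) • (1 : Matrix (Fin n) (Fin n) ℂ) := by
    rw [Matrix.sub_mul, Matrix.mul_sub, Matrix.mul_sub, Matrix.smul_mul, Matrix.mul_smul,
      Matrix.one_mul, Matrix.mul_one, Matrix.smul_mul, Matrix.mul_smul, Matrix.one_mul, smul_smul]
    push_cast
    rw [two_mul, add_smul, pow_two]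
    abel
  rw [h2, h3, Matrix.trace_add, Matrix.trace_sub, Matrix.trace_smul, Matrix.trace_smul,
    Complex.add_re, Complex.sub_re, smul_eq_mul, smul_eq_mul, Complex.re_ofReal_mul,
    Complex.re_ofReal_mul, Matrix.trace_one]
  simp
  ring

/-- `|A|²_G ≥ 0` for Hermitian `A` -/
lemma sq_nonneg' {G A : Matrix (Fin n) (Fin n) ℂ} (hG : G.PosDef) (hA : A.IsHermitian) :
    0 ≤ (G⁻¹ * A * (G⁻¹ * A)).trace.re := by
  have h1 : (A * G⁻¹ * A).PosSemidef := by
    have := hG.inv.posSemidef.mul_mul_conjTranspose_same A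
    rwa [hA.eq] at this
  have h2 := C2.trace_mul_nonneg hG.inv.posSemidef h1
  rw [Complex.le_def] at h2
  have h3 : G⁻¹ * A * (G⁻¹ * A) = G⁻¹ * (A * G⁻¹ * A) := by simp only [Matrix.mul_assoc]
  rw [h3]
  simpa using h2.1

end alg

variable {g : Chart n X → Cm n → Matrix (Fin n) (Fin n) ℂ} {B f0 : X → ℝ} {K : ℝ}

section
variable [IsManifold 𝓘(ℂ, Cm n) ω X]

lemma Pole.smQ (hg : IsHermitian g) (P : Pole g B f0 K) : SmoothFn (n := n) (Qf g B) :=
  sm_div (smoothFn_gradX hg P.smB P.smB) P.smB fun x => (P.pos x).ne'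

omit [IsManifold 𝓘(ℂ, Cm n) ω X] in
lemma Pole.smF (P : Pole g B f0 K) : SmoothFn (n := n) (Ff n B f0) := by
  have h1 : SmoothFn (n := n) (fun x => B x ^ n) :=
    sm_comp (φ := fun t : ℝ => t ^ n) (fun x => contDiffAt_id.pow n) P.smB
  have h2 := sm_mul (sm_add (smoothFn_const 1) P.smf) h1
  have h3 := sm_const_mul (1 / ((n : ℝ) - 1)) h2
  intro e x hx
  refine (h3 e x hx).congr_of_eventuallyEq (Eventually.of_forall fun y => ?_)
  simp only [Ff]; ring

omit [IsManifold 𝓘(ℂ, Cm n) ω X] in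
lemma Pole.N_eq (P : Pole g B f0 K) (x : X) : gradX g B B x = Qf g B x * B x := by
  rw [Qf, div_mul_cancel₀ _ (P.pos x).ne']

omit [IsManifold 𝓘(ℂ, Cm n) ω X] in
lemma Pole.N_fun (P : Pole g B f0 K) : gradX g B B = fun x => Qf g B x * B x :=
  funext P.N_eq

omit [IsManifold 𝓘(ℂ, Cm n) ω X] in
lemma Pole.lap_fun (P : Pole g B f0 K) :
    lapX g B = fun x => ((n : ℝ) * Qf g B x - 1 / ((n : ℝ) - 1) * B x) + Ff n B f0 x := by
  funext x
  rw [P.eq x, Ff]
  ring

omit [IsManifold 𝓘(ℂ, Cm n) ω X] in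
lemma Pole.q_nonneg (hg : IsHermitian g) (P : Pole g B f0 K) (x : X) : 0 ≤ Qf g B x :=
  div_nonneg (gradX_self_nonneg hg.posDef B x) (P.pos x).le

omit [IsManifold 𝓘(ℂ, Cm n) ω X] in
/-- `|H|² = |∂∂̄B|² - 2 Q ΔB + n Q²` -/
lemma sqE_Hf (hg : IsHermitian g) {e : Chart n X} {x : X} (hx : At e x) :
    sqE g (Hf g B) e (e x) = sqE g (hess B) e (e x) - 2 * Qf g B x * lapE g B e (e x) +
      n * Qf g B x ^ 2 := by
  have h := sq_sub_smul (A := hess B e (e x)) (hg.posDef e x hx) (Qf g B x)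
  have h2 : Hf g B e (e x) = hess B e (e x) - ((Qf g B x : ℝ) : ℂ) • g e (e x) := by
    rw [Hf, hx.left_inv]
  rw [sqE, h2, h]
  rfl

omit [IsManifold 𝓘(ℂ, Cm n) ω X] in
lemma Pole.sqE_nonneg (hg : IsHermitian g) (P : Pole g B f0 K) {e : Chart n X} {x : X}
    (hx : At e x) : 0 ≤ sqE g (Hf g B) e (e x) := by
  refine sq_nonneg' (hg.posDef e x hx) ?_
  have h1 : (hess B e (e x)).IsHermitian := cHess_isHermitian (sm_two P.smB hx)
  have h2 : (g e (e x)).IsHermitian := (hg.posDef e x hx).isHermitian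
  unfold Hf
  refine h1.sub ?_
  have h3 : (((Qf g B (e.symm (e x)) : ℝ) : ℂ) • g e (e x)).conjTranspose =
      ((Qf g B (e.symm (e x)) : ℝ) : ℂ) • g e (e x) := by
    rw [Matrix.conjTranspose_smul, h2.eq]
    congr 1
    exact Complex.conj_ofReal _
  exact h3

/-- **Step 2**: the inequality (2.1), multiplied by `B`. -/
theorem Pole.ineq21 (hg : IsKahler g)
    (hR : ∀ e x, At e x →
      (-cHess (fun z => Real.log (g e z).det.re) (e x) + g e (e x)).PosSemidef)
    (P : Pole g B f0 K) {e : Chart n X} {x : X} (hx : At e x) :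
    sqE g (Hf g B) e (e x) - (3 / ((n : ℝ) - 1) + 1) * Qf g B x * B x
      + Qf g B x * Ff n B f0 x + 2 * gradX g (Ff n B f0) B x
      + (2 * (n : ℝ) - 2) * gradX g (Qf g B) B x ≤ B x * lapX g (Qf g B) x := by
  have hgH := hg.toIsHermitian
  have sQ := P.smQ hgH
  have sF := P.smF
  have hb := bochner_ineq hg hR P.smB hx
  have h1 : lapX g (gradX g B B) x =
      Qf g B x * lapX g B x + B x * lapX g (Qf g B) x + 2 * gradX g (Qf g B) B x := by
    rw [P.N_fun, lapX_mul hgH.posDef sQ P.smB]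
  have h2 : gradX g (lapX g B) B x = (n : ℝ) * gradX g (Qf g B) B x -
      1 / ((n : ℝ) - 1) * gradX g B B x + gradX g (Ff n B f0) B x := by
    conv_lhs => rw [P.lap_fun]
    rw [gradX_add_left (sm_sub (sm_const_mul _ sQ) (sm_const_mul _ P.smB)) sF,
      gradX_sub_left (sm_const_mul _ sQ) (sm_const_mul _ P.smB), gradX_const_mul_left _ sQ,
      gradX_const_mul_left _ P.smB]
  have h3 := sqE_Hf (B := B) hgH hx
  have h4 : lapE g B e (e x) = lapX g B x := (lapX_eq hgH P.smB hx).symm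
  have h5 : lapX g B x = ((n : ℝ) * Qf g B x - 1 / ((n : ℝ) - 1) * B x) + Ff n B f0 x :=
    congrFun P.lap_fun x
  have h6 := P.N_eq x
  rw [h4] at h3
  rw [h1, h2, h6] at hb
  rw [h5] at hb h3
  have h7 : sqE g (hess B) e (e x) = sqE g (Hf g B) e (e x) +
      2 * Qf g B x * ((n : ℝ) * Qf g B x - 1 / ((n : ℝ) - 1) * B x + Ff n B f0 x) -
      n * Qf g B x ^ 2 := by linarith
  rw [h7] at hb
  have h8 : (3 / ((n : ℝ) - 1) + 1) = 3 * (1 / ((n : ℝ) - 1)) + 1 := by ring
  rw [h8]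
  set c := 1 / ((n : ℝ) - 1)
  nlinarith [hb]

lemma Pole.grad_F (hg : IsHermitian g) (P : Pole g B f0 K) {x : X} (hx : x ∉ tsupport f0)
    (hn : 2 ≤ n) : 0 ≤ gradX g (Ff n B f0) B x := by
  have hm : (0 : ℝ) < (n : ℝ) - 1 := by
    have : (2 : ℝ) ≤ n := by exact_mod_cast hn
    linarith
  have h0 : f0 =ᶠ[𝓝 x] fun _ => 0 := by
    have := (isClosed_tsupport f0).isOpen_compl.mem_nhds hx
    filter_upwards [this] with y hy using image_eq_zero_of_notMem_tsupport hy
  have hmax : IsLocalMax f0 x := by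
    filter_upwards [h0] with y hy
    rw [hy, h0.self_of_nhds]
  have h1 : SmoothFn (n := n) (fun x => B x ^ n) :=
    sm_comp (φ := fun t : ℝ => t ^ n) (fun x => contDiffAt_id.pow n) P.smB
  have h2 : Ff n B f0 = fun x => 1 / ((n : ℝ) - 1) * ((1 + f0 x) * B x ^ n) := by
    funext y; rw [Ff]; ring
  have h3 : gradX g (fun x => B x ^ n) B x = n * B x ^ (n - 1) * gradX g B B x := by
    rw [gradX_comp_left (φ := fun t : ℝ => t ^ n) (differentiableAt_pow n) P.smB]
    simp
  rw [h2, gradX_const_mul_left _ (sm_mul (sm_add (smoothFn_const 1) P.smf) h1),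
    gradX_mul_left (sm_add (smoothFn_const 1) P.smf) h1,
    gradX_add_left (smoothFn_const 1) P.smf, gradX_const_left, gradX_zero_of_max hmax, h3]
  have h4 := gradX_self_nonneg hg.posDef B x
  have h5 := P.f0_nonneg x
  have h6 := (P.pos x).le
  positivity

/-- the constant of the gradient bound -/
def Kq (n : ℕ) (K : ℝ) : ℝ := 2 * max K ((3 / ((n : ℝ) - 1) + 1) / ((n : ℝ) - 2))

/-- **Step 3**: the gradient bound. -/
theorem Pole.q_bound [CompactSpace X] (hn : 3 ≤ n) (hg : IsKahler g)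
    (hR : ∀ e x, At e x →
      (-cHess (fun z => Real.log (g e z).det.re) (e x) + g e (e x)).PosSemidef)
    (P : Pole g B f0 K) (x : X) : Qf g B x ≤ Kq n K := by
  have hgH := hg.toIsHermitian
  have hn3 : (3 : ℝ) ≤ n := by exact_mod_cast hn
  have hm : (0 : ℝ) < (n : ℝ) - 1 := by linarith
  have hm2 : (0 : ℝ) < (n : ℝ) - 2 := by linarith
  have sQ := P.smQ hgH
  have hB1 : ∀ y, 0 < 1 + B y := fun y => by have := P.pos y; linarith
  have s1 : SmoothFn (n := n) (fun y => 1 + B y) := sm_add (smoothFn_const 1) P.smB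
  set R : X → ℝ := fun y => Qf g B y / (1 + B y) with hRdef
  have sR : SmoothFn (n := n) R := sm_div sQ s1 fun y => (hB1 y).ne'
  obtain ⟨x0, hmax, hloc⟩ := exists_max sR x
  have key : R x0 ≤ max K ((3 / ((n : ℝ) - 1) + 1) / ((n : ℝ) - 2)) := by
    by_cases hx0 : x0 ∈ tsupport f0
    · refine le_trans ?_ (le_max_left _ _)
      refine le_trans ?_ (P.q_le x0 hx0)
      have h1 := P.pos x0
      exact div_le_self (P.q_nonneg hgH x0) (by linarith)
    · refine le_trans ?_ (le_max_right _ _)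
      rcases (div_nonneg (P.q_nonneg hgH x0) (hB1 x0).le).eq_or_lt with h0 | h0
      · have : R x0 = 0 := h0.symm
        rw [this]; positivity
      have hRpos : 0 < R x0 := h0
      have hx := at_chartAt (n := n) x0
      have h1 := P.ineq21 hg hR hx
      have h2 := P.sqE_nonneg hgH hx
      have h3 := P.grad_F hgH hx0 (by omega)
      have eQ : Qf g B = fun y => R y * (1 + B y) := by
        funext y; rw [hRdef]; field_simp [(hB1 y).ne']
      have e1 : lapX g (Qf g B) x0 = R x0 * lapX g B x0 + (1 + B x0) * lapX g R x0 +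
          2 * gradX g R (fun y => 1 + B y) x0 := by
        conv_lhs => rw [eQ]
        rw [lapX_mul hgH.posDef sR s1, lapX_add' (smoothFn_const 1) P.smB, lapX_const', zero_add]
      have e2 : gradX g (Qf g B) B x0 = R x0 * gradX g B B x0 := by
        conv_lhs => rw [eQ]
        rw [gradX_mul_left sR s1, gradX_zero_of_max hloc, gradX_add_left (smoothFn_const 1) P.smB,
          gradX_const_left]
        ring
      have e3 := gradX_zero_of_max (g := g) hloc (fun y => 1 + B y)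
      have e4 := lapX_nonpos_of_max (g := g) hgH.posDef sR hloc
      have e5 := P.N_eq x0
      have e6 : lapX g B x0 = ((n : ℝ) * Qf g B x0 - 1 / ((n : ℝ) - 1) * B x0) + Ff n B f0 x0 :=
        congrFun P.lap_fun x0
      have e7 : Qf g B x0 = R x0 * (1 + B x0) := congrFun eQ x0
      have hB0 := P.pos x0
      have hF : 0 ≤ Ff n B f0 x0 := by
        unfold Ff
        have := P.f0_nonneg x0
        positivity
      have e8 : lapX g (Qf g B) x0 ≤ R x0 * lapX g B x0 := by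
        rw [e1, e3]
        have := mul_nonpos_of_nonneg_of_nonpos (hB1 x0).le e4
        linarith
      have e9 := mul_le_mul_of_nonneg_left e8 hB0.le
      rw [e2, e5] at h1
      rw [e6] at e9
      have hc : (0 : ℝ) ≤ 1 / ((n : ℝ) - 1) := by positivity
      have h31 : (3 / ((n : ℝ) - 1) + 1) = 3 * (1 / ((n : ℝ) - 1)) + 1 := by ring
      rw [h31] at h1 ⊢
      rw [e7] at h1 e9
      rw [le_div_iff₀ hm2]
      set c := 1 / ((n : ℝ) - 1) with hcdef
      set r := R x0
      set b := B x0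
      set F := Ff n B f0 x0
      -- combine
      have h10 : 0 ≤ r * (r * b * (1 + b)) * (0 : ℝ) := by simp
      have h11 : ((n : ℝ) - 2) * r * (r * (1 + b) * b) ≤ (3 * c + 1) * (r * (1 + b) * b) := by
        have hrF : 0 ≤ r * F := mul_nonneg hRpos.le hF
        have hcb : 0 ≤ c * r * b * b := by positivity
        nlinarith [h1, e9, h2, h3, hrF, hcb]
      have h12 : 0 < r * (1 + b) * b := by positivity
      have h13 := le_of_mul_le_mul_right h11 h12
      linarith
  have h1 : Qf g B x = R x * (1 + B x) := by rw [hRdef]; field_simp [(hB1 x).ne']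
  have h2 := hmax x
  have h3 : 0 ≤ R x := div_nonneg (P.q_nonneg hgH x) (hB1 x).le
  rw [h1, Kq]
  have h4 := P.le_one x
  nlinarith [h2, key, h3, h4]

end

end Vale.Agent.P272.K.AMP
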