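import Vale.Agent.P272.K.AMP.QH.BochAlg
import Vale.Agent.P272.K.AMP.Iface
import Vale.Agent.P272.K.P1.Ineq

/-!
# The Bochner inequality for `Ric(g) ≥ -g`, on `X`
-/

open scoped Manifold ContDiff ComplexOrder Topology ComplexConjugate
open TopologicalSpace (Opens)
open Complex Filter Set Matrix

set_option linter.all false

noncomputable section

namespace Vale.Agent.P272.K.P1

lemma KMet.ric_term {n : ℕ} {A : Type*} [CommRing A] [StarRing A] {W : WAlg n A} (K : KMet W)
    (f : A) : ((KMet.gv W f)ᴴ * K.Gi * K.Ric * K.Gi * KMet.gv W f) () () =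
      (K.Gi * (KMet.gv W f * (KMet.gv W f)ᴴ) * K.Gi * K.Ric).trace := by
  have t : ∀ M : Matrix Unit Unit A, M () () = M.trace := fun M => by simp [Matrix.trace]
  calc ((KMet.gv W f)ᴴ * K.Gi * K.Ric * K.Gi * KMet.gv W f) () () =
      ((KMet.gv W f)ᴴ * K.Gi * K.Ric * K.Gi * KMet.gv W f).trace := t _
    _ = (KMet.gv W f * ((KMet.gv W f)ᴴ * K.Gi * K.Ric * K.Gi)).trace := Matrix.trace_mul_comm _ _
    _ = ((KMet.gv W f * (KMet.gv W f)ᴴ * K.Gi * K.Ric) * K.Gi).trace := by
        simp only [Matrix.mul_assoc]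
    _ = (K.Gi * (KMet.gv W f * (KMet.gv W f)ᴴ * K.Gi * K.Ric)).trace := Matrix.trace_mul_comm _ _
    _ = _ := by simp only [Matrix.mul_assoc]

end Vale.Agent.P272.K.P1

namespace Vale.Agent.P272.K.AMP

open Vale.Agent.P272.K P1

variable {n : ℕ} {X : Type*} [TopologicalSpace X] [ChartedSpace (Cm n) X]

/-- `|b|²_g` for a Hermitian form `b` -/
def sqE (g b : Chart n X → Cm n → Matrix (Fin n) (Fin n) ℂ) (e : Chart n X) (z : Cm n) : ℝ :=
  ((g e z)⁻¹ * b e z * ((g e z)⁻¹ * b e z)).trace.re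

variable [IsManifold 𝓘(ℂ, Cm n) ω X]

section chart

variable {g : Chart n X → Cm n → Matrix (Fin n) (Fin n) ℂ} (hg : IsKahler g) {e : Chart n X}
  (he : e ∈ atlas (Cm n) X)

/-- the target of a chart as an open set -/
def tg (e : Chart n X) : Opens (Cm n) := ⟨e.target, e.open_target⟩

include hg he in
lemma met_tg : Met (tg e) (g e) where
  smooth z hz i j := by
    have h := hg.smooth e (e.symm z) (At.of_target he hz) i j
    rwa [e.right_inv hz] at h
  pos z hz := by
    have h := hg.posDef e (e.symm z) (At.of_target he hz)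
    rwa [e.right_inv hz] at h

include hg he in
lemma closed_tg : ∀ z ∈ tg e, ∀ i j l, dz l (fun y => g e y i j) z = dz i (fun y => g e y l j) z := by
  intro z hz i j l
  have h := hg.closed e (e.symm z) (At.of_target he hz) i j l
  rwa [e.right_inv hz] at h

/-- the Kähler metric over the smooth functions on the target of `e` -/
def KK : KMet (Sm.W (tg e)) := (met_tg hg he).kmet (closed_tg hg he)

include he in
lemma sm_tg {u : X → ℝ} (hu : SmoothFn (n := n) u) :
    ∀ z ∈ tg e, ContDiffAt ℝ ∞ (fun y => ((u (e.symm y) : ℝ) : ℂ)) z := by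
  intro z hz
  have h := ofReal_symm_contDiffAt hu (At.of_target he hz)
  rwa [e.right_inv hz] at h

/-- a smooth function on `X` as an element of the algebra -/
def mkf {u : X → ℝ} (hu : SmoothFn (n := n) u) : Sm (tg e) :=
  Sm.mk (fun y => ((u (e.symm y) : ℝ) : ℂ)) (sm_tg he hu)

lemma mkf_star {u : X → ℝ} (hu : SmoothFn (n := n) u) : star (mkf he hu) = mkf he hu := by
  refine Sm.ev_ext fun x => ?_
  rw [map_star, mkf, Sm.ev_mk]
  exact Complex.conj_ofReal _

lemma ev_mkf {u : X → ℝ} (hu : SmoothFn (n := n) u) (x : tg e) :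
    Sm.ev x (mkf he hu) = ((u (e.symm x) : ℝ) : ℂ) := by
  rw [mkf, Sm.ev_mk]

lemma ev_Gi (x : tg e) (i j : Fin n) : Sm.ev x ((KK hg he).Gi i j) = (g e x)⁻¹ i j := by
  have e1 : Sm.evM x (KK hg he).Gi = (g e x)⁻¹ := (met_tg hg he).evM_Mi x
  rw [← Sm.evM_apply, e1]

lemma ev_hes {u : X → ℝ} (hu : SmoothFn (n := n) u) (x : tg e) (i j : Fin n) :
    Sm.ev x (KMet.hes (Sm.W (tg e)) (mkf he hu) i j) = hess u e x i j := by
  simp only [KMet.hes, of_apply, Sm.W_d, Sm.W_db]
  rw [mkf, Sm.ev_d_db_mk, hess, cHess_apply]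

lemma ev_gv {u : X → ℝ} (hu : SmoothFn (n := n) u) (x : tg e) (i : Fin n) (a : Unit) :
    Sm.ev x (KMet.gv (Sm.W (tg e)) (mkf he hu) i a) =
      dz i (fun y => ((u (e.symm y) : ℝ) : ℂ)) x := by
  simp only [KMet.gv, of_apply, Sm.W_d]
  rw [mkf, Sm.ev_d_mk]

lemma ev_gv_star {u : X → ℝ} (hu : SmoothFn (n := n) u) (x : tg e) (i : Fin n) (a : Unit) :
    Sm.ev x ((KMet.gv (Sm.W (tg e)) (mkf he hu))ᴴ a i) =
      dzb i (fun y => ((u (e.symm y) : ℝ) : ℂ)) x := by
  rw [conjTranspose_apply]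
  simp only [KMet.gv, of_apply]
  rw [← (Sm.W (tg e)).db_star, mkf_star, Sm.W_db, mkf, Sm.ev_db_mk]

lemma ev_lap_trace {u : X → ℝ} (hu : SmoothFn (n := n) u) (x : tg e) :
    Sm.ev x ((KK hg he).lap (mkf he hu)) = ((g e x)⁻¹ * hess u e x).trace := by
  rw [KMet.lap_eq, Sm.ev_trace, Sm.evM_mul]
  congr 2
  ext i j
  rw [Sm.evM_apply, ev_hes]

/-- an element of the algebra fixed by `star` has real values -/
lemma ev_real {F : Sm (tg e)} (hF : star F = F) (x : tg e) : Sm.ev x F = (((Sm.ev x F).re : ℝ) : ℂ) := by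
  have h : conj (Sm.ev x F) = Sm.ev x F := by
    have := map_star (Sm.ev x) F
    rw [hF] at this
    exact this.symm
  exact (Complex.conj_eq_iff_re.1 h).symm

lemma ev_lap {u : X → ℝ} (hu : SmoothFn (n := n) u) (x : tg e) :
    Sm.ev x ((KK hg he).lap (mkf he hu)) = ((lapX g u (e.symm x) : ℝ) : ℂ) := by
  rw [ev_real ((KK hg he).lap_star (mkf_star he hu)) x, ev_lap_trace]
  rw [lapX_eq hg.toIsHermitian hu (At.of_target he x.2), e.right_inv x.2, lapE]

lemma lap_mkf {u : X → ℝ} (hu : SmoothFn (n := n) u) :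
    (KK hg he).lap (mkf he hu) = mkf he (smoothFn_lapX hg.toIsHermitian hu) :=
  Sm.ev_ext fun x => by rw [ev_lap, ev_mkf]

/-- `(∂u)^* G⁻¹ ∂v` -/
lemma ev_pair {u v : X → ℝ} (hu : SmoothFn (n := n) u) (hv : SmoothFn (n := n) v) (x : tg e) :
    Sm.ev x (((KMet.gv (Sm.W (tg e)) (mkf he hu))ᴴ * (KK hg he).Gi *
      KMet.gv (Sm.W (tg e)) (mkf he hv)) () ()) = ((g e x)⁻¹ * dd v u e x).trace := by
  simp only [Matrix.mul_apply, map_sum, map_mul, ev_gv, ev_gv_star, ev_Gi, Matrix.trace,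
    Matrix.diag_apply, dd, of_apply, Finset.sum_mul]
  rw [Finset.sum_comm]
  refine Finset.sum_congr rfl fun i _ => Finset.sum_congr rfl fun j _ => ?_
  ring

lemma nrm_star {u : X → ℝ} (hu : SmoothFn (n := n) u) :
    star ((KK hg he).nrm (mkf he hu) () ()) = (KK hg he).nrm (mkf he hu) () () := by
  have h : ((KK hg he).nrm (mkf he hu))ᴴ = (KK hg he).nrm (mkf he hu) := by
    rw [KMet.nrm, conjTranspose_mul, conjTranspose_mul, conjTranspose_conjTranspose,
      (KK hg he).herm_inv, Matrix.mul_assoc]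
  have := congrFun (congrFun h ()) ()
  rwa [conjTranspose_apply] at this

lemma nrm_mkf {u : X → ℝ} (hu : SmoothFn (n := n) u) :
    (KK hg he).nrm (mkf he hu) () () = mkf he (smoothFn_gradX hg.toIsHermitian hu hu) :=
  Sm.ev_ext fun x => by
    rw [ev_real (nrm_star hg he hu) x, ev_mkf, KMet.nrm, ev_pair]
    rw [gradX_eq hg.toIsHermitian hu hu (At.of_target he x.2), e.right_inv x.2, gradE]

end chart

section grad

variable {g : Chart n X → Cm n → Matrix (Fin n) (Fin n) ℂ} {u v : X → ℝ} {e : Chart n X} {x : X}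

lemma dz_real_conj (hu : SmoothFn (n := n) u) (hx : At e x) (i : Fin n) :
    conj (dz i (fun y => ((u (e.symm y) : ℝ) : ℂ)) (e x)) =
      dzb i (fun y => ((u (e.symm y) : ℝ) : ℂ)) (e x) := by
  have h := dzb_cj (i := i) ((ofReal_symm_contDiffAt hu hx).differentiableAt (by simp))
  rw [← cj, ← h]
  congr 1
  funext y
  exact Complex.conj_ofReal _

lemma dd_conjTranspose (hu : SmoothFn (n := n) u) (hv : SmoothFn (n := n) v) (hx : At e x) :
    (dd u v e (e x))ᴴ = dd v u e (e x) := by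
  ext i j
  rw [conjTranspose_apply]
  simp only [dd, of_apply]
  rw [star_mul']
  have h1 := dz_real_conj hu hx j
  have h2 := dz_real_conj hv hx i
  have h1' : star (dz j (fun y => ((u (e.symm y) : ℝ) : ℂ)) (e x)) = _ := h1
  have h2' : star (dzb i (fun y => ((v (e.symm y) : ℝ) : ℂ)) (e x)) =
      dz i (fun y => ((v (e.symm y) : ℝ) : ℂ)) (e x) := by
    rw [← h2]; exact star_star _
  rw [h1', h2', mul_comm]

lemma trace_dd_conj (hg : IsHermitian g) (hu : SmoothFn (n := n) u) (hv : SmoothFn (n := n) v)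
    (hx : At e x) : conj ((g e (e x))⁻¹ * dd u v e (e x)).trace =
      ((g e (e x))⁻¹ * dd v u e (e x)).trace := by
  have h : star ((g e (e x))⁻¹ * dd u v e (e x)).trace =
      ((g e (e x))⁻¹ * dd v u e (e x)).trace := by
    rw [← Matrix.trace_conjTranspose, conjTranspose_mul, dd_conjTranspose hu hv hx,
      (hg.posDef e x hx).inv.isHermitian.eq, Matrix.trace_mul_comm]
  exact h

lemma gradE_comm (hg : IsHermitian g) (hu : SmoothFn (n := n) u) (hv : SmoothFn (n := n) v)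
    (hx : At e x) : gradE g u v e (e x) = gradE g v u e (e x) := by
  rw [gradE, gradE, ← trace_dd_conj hg hu hv hx, Complex.conj_re]

end grad

section boch

variable {g : Chart n X → Cm n → Matrix (Fin n) (Fin n) ℂ} (hg : IsKahler g) {e : Chart n X}
  (he : e ∈ atlas (Cm n) X) {u : X → ℝ} (hu : SmoothFn (n := n) u) (x : tg e)

lemma boch_t1 : 0 ≤ (Sm.ev x (∑ k, ∑ l, (KK hg he).Gi l k *
    (((KK hg he).scol (mkf he hu) l)ᴴ * (KK hg he).Gi *
      (KK hg he).scol (mkf he hu) k) () ())).re := by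
  set S : Matrix (Fin n) (Fin n) ℂ :=
    Matrix.of fun k i => Sm.ev x ((KK hg he).scol (mkf he hu) k i ()) with hS
  have hpos : (g e x)⁻¹.PosSemidef := ((met_tg hg he).pos x x.2).inv.posSemidef
  have h1 : Sm.ev x (∑ k, ∑ l, (KK hg he).Gi l k *
      (((KK hg he).scol (mkf he hu) l)ᴴ * (KK hg he).Gi *
      (KK hg he).scol (mkf he hu) k) () ()) =
      ((g e x)⁻¹ * (S * ((g e x)⁻¹)ᵀ * Sᴴ)).trace := by
    simp only [Matrix.mul_apply, map_sum, map_mul, conjTranspose_apply, ev_Gi, Matrix.trace,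
      Matrix.diag_apply, Finset.sum_mul, Finset.mul_sum, map_star, Matrix.transpose_apply, hS,
      of_apply]
    rw [Finset.sum_comm]
    refine Finset.sum_congr rfl fun l _ => Finset.sum_congr rfl fun k _ => ?_
    rw [Finset.sum_comm]
    refine Finset.sum_congr rfl fun j _ => Finset.sum_congr rfl fun i _ => ?_
    ring
  rw [h1]
  have h2 : (S * ((g e x)⁻¹)ᵀ * Sᴴ).PosSemidef := hpos.transpose.mul_mul_conjTranspose_same S
  have h3 := C2.trace_mul_nonneg hpos h2
  rw [Complex.le_def] at h3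
  simpa using h3.1

lemma boch_t3 (hR : (-cHess (fun y => Real.log (g e y).det.re) (x : Cm n) + g e x).PosSemidef) :
    -gradE g u u e x ≤ (Sm.ev x (((KMet.gv (Sm.W (tg e)) (mkf he hu))ᴴ * (KK hg he).Gi *
      (KK hg he).Ric * (KK hg he).Gi * KMet.gv (Sm.W (tg e)) (mkf he hu)) () ())).re := by
  have hgx : (g e x).PosDef := (met_tg hg he).pos x x.2
  have h0 : (((KMet.gv (Sm.W (tg e)) (mkf he hu))ᴴ * (KK hg he).Gi *
      (KK hg he).Ric * (KK hg he).Gi * KMet.gv (Sm.W (tg e)) (mkf he hu)) () ()) =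
      ((KK hg he).Gi * (KMet.gv (Sm.W (tg e)) (mkf he hu) *
        (KMet.gv (Sm.W (tg e)) (mkf he hu))ᴴ) * (KK hg he).Gi * (KK hg he).Ric).trace := by
    exact (KK hg he).ric_term (mkf he hu)
  have e1 : Sm.evM x (KK hg he).Gi = (g e x)⁻¹ := (met_tg hg he).evM_Mi x
  have e2 : Sm.evM x (KMet.gv (Sm.W (tg e)) (mkf he hu) *
        (KMet.gv (Sm.W (tg e)) (mkf he hu))ᴴ) = dd u u e x := by
    ext i j
    rw [Sm.evM_apply]
    simp only [Matrix.mul_apply, Finset.univ_unique, Finset.sum_singleton, map_mul, ev_gv,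
      ev_gv_star, dd, of_apply]
  have e3 : Sm.evM x (KK hg he).Ric = -cHess (fun y => Real.log (g e y).det.re) x :=
    evM_Ric (met_tg hg he) (closed_tg hg he) x
  rw [h0, Sm.ev_trace, Sm.evM_mul, Sm.evM_mul, Sm.evM_mul, e1, e2, e3]
  have hdd : (dd u u e x).PosSemidef := by
    have h : dd u u e x = (Matrix.of fun (i : Fin n) (_ : Unit) =>
        dz i (fun y => ((u (e.symm y) : ℝ) : ℂ)) (x : Cm n)) * (Matrix.of fun (i : Fin n)
        (_ : Unit) => dz i (fun y => ((u (e.symm y) : ℝ) : ℂ)) (x : Cm n))ᴴ := by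
      ext i j
      have h2 := dz_real_conj hu (At.of_target he x.2) j
      rw [e.right_inv x.2] at h2
      simp only [dd, of_apply, Matrix.mul_apply, Finset.univ_unique, Finset.sum_singleton,
        conjTranspose_apply]
      rw [← h2]; rfl
    rw [h]
    exact Matrix.posSemidef_self_mul_conjTranspose _
  have hP : ((g e x)⁻¹ * dd u u e x * (g e x)⁻¹).PosSemidef := by
    have := hdd.mul_mul_conjTranspose_same (g e x)⁻¹
    rwa [hgx.inv.isHermitian.eq] at this
  have h2 := C2.trace_mul_nonneg hP hR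
  rw [Matrix.mul_add, Matrix.trace_add] at h2
  have h3 : ((g e x)⁻¹ * dd u u e x * (g e x)⁻¹ * g e x).trace = ((g e x)⁻¹ * dd u u e x).trace := by
    rw [Matrix.mul_assoc, Matrix.nonsing_inv_mul _ hgx.det_pos.ne'.isUnit, Matrix.mul_one]
  rw [h3, Complex.le_def] at h2
  have h4 := h2.1
  rw [Complex.add_re, Complex.zero_re] at h4
  rw [gradE]
  linarith

end boch

lemma boch_t2 {g : Chart n X → Cm n → Matrix (Fin n) (Fin n) ℂ} (hg : IsKahler g)
    {e : Chart n X} (he : e ∈ atlas (Cm n) X) {u : X → ℝ} (hu : SmoothFn (n := n) u) (z : tg e) :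
    (Sm.ev z ((KK hg he).Gi * KMet.hes (Sm.W (tg e)) (mkf he hu) *
      ((KK hg he).Gi * KMet.hes (Sm.W (tg e)) (mkf he hu))).trace).re =
      sqE g (hess u) e z := by
  rw [Sm.ev_trace, Sm.evM_mul, Sm.evM_mul, sqE]
  have e1 : Sm.evM z (KK hg he).Gi = (g e z)⁻¹ := (met_tg hg he).evM_Mi z
  have e2 : Sm.evM z (KMet.hes (Sm.W (tg e)) (mkf he hu)) = hess u e z := by
    ext i j
    rw [Sm.evM_apply, ev_hes]
  rw [e1, e2]

lemma re_ev_sum {O : Opens (Cm n)} (z : O) {L A B C D E : Sm O}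
    (h : L = A + B + C + (D + E)) : (Sm.ev z L).re =
      (Sm.ev z A).re + (Sm.ev z B).re + (Sm.ev z C).re + ((Sm.ev z D).re + (Sm.ev z E).re) := by
  rw [h, map_add, map_add, map_add, map_add, Complex.add_re, Complex.add_re, Complex.add_re,
    Complex.add_re]

lemma boch_key {g : Chart n X → Cm n → Matrix (Fin n) (Fin n) ℂ} (hg : IsKahler g)
    {e : Chart n X} (he : e ∈ atlas (Cm n) X) {u : X → ℝ} (hu : SmoothFn (n := n) u) (z : tg e) :
    lapX g (gradX g u u) (e.symm z) =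
      (Sm.ev z (∑ k, ∑ l, (KK hg he).Gi l k *
        (((KK hg he).scol (mkf he hu) l)ᴴ * (KK hg he).Gi *
        (KK hg he).scol (mkf he hu) k) () ())).re
      + sqE g (hess u) e z
      + (Sm.ev z (((KMet.gv (Sm.W (tg e)) (mkf he hu))ᴴ * (KK hg he).Gi *
      (KK hg he).Ric * (KK hg he).Gi * KMet.gv (Sm.W (tg e)) (mkf he hu)) () ())).re
      + (gradE g u (lapX g u) e z + gradE g (lapX g u) u e z) := by
  have h2 : (Sm.ev z ((KK hg he).lap ((KK hg he).nrm (mkf he hu) () ()))).re =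
      lapX g (gradX g u u) (e.symm z) := by
    rw [nrm_mkf hg he hu, ev_lap, Complex.ofReal_re]
  have h3 : (Sm.ev z (((KMet.gv (Sm.W (tg e)) ((KK hg he).lap (mkf he hu)))ᴴ * (KK hg he).Gi *
      KMet.gv (Sm.W (tg e)) (mkf he hu)) () ())).re = gradE g u (lapX g u) e z := by
    rw [lap_mkf hg he hu, ev_pair]; rfl
  have h4 : (Sm.ev z (((KMet.gv (Sm.W (tg e)) (mkf he hu))ᴴ * (KK hg he).Gi *
      KMet.gv (Sm.W (tg e)) ((KK hg he).lap (mkf he hu))) () ())).re =
      gradE g (lapX g u) u e z := by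
    rw [lap_mkf hg he hu, ev_pair]; rfl
  rw [← h2, ← boch_t2 hg he hu z, ← h3, ← h4]
  exact re_ev_sum z ((KK hg he).bochner (mkf_star he hu))

/-- **The Bochner inequality.** -/
theorem bochner_ineq {g : Chart n X → Cm n → Matrix (Fin n) (Fin n) ℂ} (hg : IsKahler g)
    (hR : ∀ e x, At e x →
      (-cHess (fun z => Real.log (g e z).det.re) (e x) + g e (e x)).PosSemidef)
    {u : X → ℝ} (hu : SmoothFn (n := n) u) {e : Chart n X} {x : X} (hx : At e x) :
    sqE g (hess u) e (e x) + 2 * gradX g (lapX g u) u x - gradX g u u x ≤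
      lapX g (gradX g u u) x := by
  have hgH := hg.toIsHermitian
  have hl := smoothFn_lapX hgH hu
  have key := boch_key hg hx.1 hu ⟨e x, hx.mem_target⟩
  have h1 := boch_t1 hg hx.1 hu ⟨e x, hx.mem_target⟩
  have h3 := boch_t3 hg hx.1 hu ⟨e x, hx.mem_target⟩ (hR e x hx)
  have h4 : e.symm (e x) = x := hx.left_inv
  have h5 : gradE g u (lapX g u) e (e x) = gradX g (lapX g u) u x := by
    rw [gradX_eq hgH hl hu hx, gradE_comm hgH hl hu hx]
  have h6 : gradE g (lapX g u) u e (e x) = gradX g (lapX g u) u x :=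
    (gradX_eq hgH hl hu hx).symm
  have h7 : gradE g u u e (e x) = gradX g u u x := (gradX_eq hgH hu hu hx).symm
  simp only [h4, h5, h6, h7] at key h3
  linarith

end Vale.Agent.P272.K.AMP
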