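import Vale.Agent.P272.K.P1.Ident

/-!
# The Bochner formula on a Kähler manifold (algebraic form)

`K` is a Kähler metric over a Wirtinger algebra, `f` a real element. With `v_i = ∂_i f`,
`H_{il} = ∂_i ∂̄_l f` and `N = v^* G⁻¹ v = |∂f|²` we compute `∑ G⁻¹_{lk} ∂_k ∂̄_l N`.
-/

namespace Vale.Agent.P272.K.P1

open Matrix

set_option linter.unusedSectionVars false

namespace KMet

variable {n : ℕ} {A : Type*} [CommRing A] [StarRing A] {W : WAlg n A} (K : KMet W)

/-- the column `(∂_i f)_i` -/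
def gv (W : WAlg n A) (f : A) : Matrix (Fin n) Unit A := Matrix.of fun i _ => W.d i f

/-- the column `(∂_i ∂̄_l f)_i` -/
def hcol (W : WAlg n A) (f : A) (l : Fin n) : Matrix (Fin n) Unit A :=
  Matrix.of fun i _ => W.d i (W.db l f)

/-- the matrix `(∂_i ∂̄_l f)` -/
def hes (W : WAlg n A) (f : A) : Matrix (Fin n) (Fin n) A :=
  Matrix.of fun i l => W.d i (W.db l f)

/-- the covariant derivative of `∂f` in the direction `∂_l` -/
def scol (f : A) (l : Fin n) : Matrix (Fin n) Unit A := W.D l (gv W f) - K.Ga l * gv W f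

lemma Db_gv (f : A) (l : Fin n) : W.Db l (gv W f) = hcol W f l := by
  ext i j
  simp only [WAlg.Db_apply, gv, hcol, of_apply]
  rw [W.d_db]

lemma D_hcol (f : A) (i k l : Fin n) (u : Unit) :
    W.D k (hcol W f l) i u = W.D i (hcol W f l) k u := by
  simp only [WAlg.D_apply, hcol, of_apply]
  rw [W.d_d]

/-- `|∂f|²` as a `1 × 1` matrix -/
def nrm (f : A) : Matrix Unit Unit A := (gv W f)ᴴ * K.Gi * gv W f

lemma Db_nrm (f : A) (l : Fin n) :
    W.Db l (K.nrm f) = (K.scol f l)ᴴ * K.Gi * gv W f + (gv W f)ᴴ * K.Gi * hcol W f l := by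
  rw [nrm, W.Db_mul, W.Db_mul, K.Db_Gi, Db_gv, W.Db_conjTranspose, scol, conjTranspose_sub,
    conjTranspose_mul]
  simp only [Matrix.add_mul, Matrix.sub_mul, Matrix.mul_neg, Matrix.neg_mul, ← Matrix.mul_assoc]
  abel

lemma D_Gi_gv (f : A) (k : Fin n) : W.D k (K.Gi * gv W f) = K.Gi * K.scol f k := by
  rw [W.D_mul, K.D_Gi, scol, Matrix.mul_sub, Matrix.neg_mul, ← Matrix.mul_assoc]
  abel

lemma Db_scol (f : A) (k l : Fin n) :
    W.Db k (K.scol f l) = (W.D l (hcol W f k) - K.Ga l * hcol W f k)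
      + K.R l k * K.Gi * gv W f := by
  rw [scol, W.Db_sub, W.Db_mul, K.Db_Ga, Db_gv]
  have h : W.Db k (W.D l (gv W f)) = W.D l (hcol W f k) := by
    rw [← W.D_Db, Db_gv]
  rw [h, Matrix.neg_mul]
  abel

lemma D_Db_nrm (f : A) (k l : Fin n) :
    W.D k (W.Db l (K.nrm f)) = (K.scol f l)ᴴ * K.Gi * K.scol f k
      + (hcol W f k)ᴴ * K.Gi * hcol W f l
      + (gv W f)ᴴ * K.Gi * K.R k l * K.Gi * gv W f
      + (((W.D l (hcol W f k) - K.Ga l * hcol W f k))ᴴ * K.Gi * gv W f
        + (gv W f)ᴴ * K.Gi * (W.D k (hcol W f l) - K.Ga k * hcol W f l)) := by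
  rw [K.Db_nrm, W.D_add]
  have e1 : W.D k ((K.scol f l)ᴴ * K.Gi * gv W f) =
      ((W.D l (hcol W f k) - K.Ga l * hcol W f k))ᴴ * K.Gi * gv W f
        + (gv W f)ᴴ * K.Gi * K.R k l * K.Gi * gv W f
        + (K.scol f l)ᴴ * K.Gi * K.scol f k := by
    rw [Matrix.mul_assoc, W.D_mul, K.D_Gi_gv, W.D_conjTranspose, K.Db_scol, conjTranspose_add,
      conjTranspose_mul, conjTranspose_mul, K.herm_inv, K.R_conjTranspose]
    simp only [Matrix.add_mul, ← Matrix.mul_assoc]
  have e2 : W.D k ((gv W f)ᴴ * K.Gi * hcol W f l) =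
      (hcol W f k)ᴴ * K.Gi * hcol W f l
        + (gv W f)ᴴ * K.Gi * (W.D k (hcol W f l) - K.Ga k * hcol W f l) := by
    rw [W.D_mul, W.D_mul, W.D_conjTranspose, Db_gv, K.D_Gi]
    simp only [Matrix.add_mul, Matrix.mul_sub, Matrix.mul_neg, Matrix.neg_mul, ← Matrix.mul_assoc]
    abel
  rw [e1, e2]
  abel

/-- the Laplacian `∑ g^{k l̄} ∂_k ∂̄_l f` -/
def lap (f : A) : A := ∑ k, ∑ l, K.Gi l k * W.d k (W.db l f)

lemma lap_eq (f : A) : K.lap f = (K.Gi * hes W f).trace := by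
  simp only [lap, trace, diag, Matrix.mul_apply, hes, of_apply]
  rw [Finset.sum_comm]

lemma gv_lap (f : A) (i : Fin n) (u : Unit) :
    gv W (K.lap f) i u =
      ∑ k, ∑ l, K.Gi l k * (W.D k (hcol W f l) - K.Ga k * hcol W f l) i u := by
  have h1 : gv W (K.lap f) i u = ∑ k, ∑ l,
      (W.d i (K.Gi l k) * W.d k (W.db l f) + K.Gi l k * W.d i (W.d k (W.db l f))) := by
    simp only [gv, of_apply, lap, W.d_sum, W.d_mul]
  have h2 : ∀ k l, W.d i (K.Gi l k) = -∑ m, K.Gi l m * K.Ga i m k := by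
    intro k l
    rw [← WAlg.D_apply, K.D_Gi, Matrix.neg_apply, Matrix.mul_apply]
  have h3 : ∑ k, ∑ l, (W.d i (K.Gi l k)) * W.d k (W.db l f) =
      -∑ k, ∑ l, K.Gi l k * (K.Ga k * hcol W f l) i u := by
    simp only [h2, neg_mul, Finset.sum_neg_distrib, Matrix.mul_apply, hcol, of_apply]
    congr 1
    simp only [Finset.sum_mul, Finset.mul_sum]
    rw [Finset.sum_comm]
    conv_rhs => rw [Finset.sum_comm]
    refine Finset.sum_congr rfl fun l _ => ?_
    rw [Finset.sum_comm]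
    refine Finset.sum_congr rfl fun m _ => Finset.sum_congr rfl fun k _ => ?_
    rw [K.Ga_symm i m k]
    ring
  rw [h1]
  simp only [Finset.sum_add_distrib]
  rw [h3]
  simp only [Matrix.sub_apply, mul_sub, Finset.sum_sub_distrib]
  rw [sub_eq_neg_add]
  congr 1
  refine Finset.sum_congr rfl fun k _ => Finset.sum_congr rfl fun l _ => ?_
  simp only [WAlg.D_apply, hcol, of_apply]
  rw [W.d_d]

lemma sum_mul_gv_lap (f : A) (y : Matrix Unit (Fin n) A) :
    ∑ k, ∑ l, K.Gi l k • (y * (W.D k (hcol W f l) - K.Ga k * hcol W f l)) =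
      y * gv W (K.lap f) := by
  ext a b
  simp only [Matrix.sum_apply, Matrix.smul_apply, smul_eq_mul]
  rw [Matrix.mul_apply]
  simp only [K.gv_lap, Matrix.mul_apply (M := y), Finset.mul_sum]
  have : ∀ k, ∑ l, ∑ i, K.Gi l k * (y a i * (W.D k (hcol W f l) - K.Ga k * hcol W f l) i b) =
      ∑ i, ∑ l, y a i * (K.Gi l k * (W.D k (hcol W f l) - K.Ga k * hcol W f l) i b) := by
    intro k
    rw [Finset.sum_comm]
    exact Finset.sum_congr rfl fun i _ => Finset.sum_congr rfl fun l _ => by ring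
  simp only [this]
  rw [Finset.sum_comm]

variable {f : A} (hf : star f = f)

include hf in
lemma hes_herm : (hes W f)ᴴ = hes W f := by
  ext i j
  simp only [conjTranspose_apply, hes, of_apply]
  rw [← W.db_star, ← W.d_star, hf, W.d_db]

include hf in
lemma sum_hcol : ∑ k, ∑ l, K.Gi l k * ((hcol W f k)ᴴ * K.Gi * hcol W f l) () () =
    (K.Gi * hes W f * (K.Gi * hes W f)).trace := by
  have h1 : ∀ k l, ((hcol W f k)ᴴ * K.Gi * hcol W f l) () () =
      (hes W f * K.Gi * hes W f) k l := by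
    intro k l
    have h2 : ∀ i, star (W.d i (W.db k f)) = W.d k (W.db i f) := by
      intro i
      have := congrFun (congrFun (hes_herm hf (W := W)) k) i
      simpa only [conjTranspose_apply, hes, of_apply] using this
    simp only [Matrix.mul_apply, conjTranspose_apply, hcol, hes, of_apply, h2]
  simp only [h1]
  rw [Matrix.mul_assoc K.Gi, ← Matrix.mul_assoc (hes W f)]
  simp only [trace, diag, Matrix.mul_apply (M := K.Gi)]
  rw [Finset.sum_comm]

include hf in
lemma lap_star : star (K.lap f) = K.lap f := by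
  rw [lap_eq, ← Matrix.trace_conjTranspose, conjTranspose_mul, hes_herm hf, K.herm_inv,
    Matrix.trace_mul_comm]

include hf in
/-- **Bochner's formula** -/
theorem bochner : K.lap (K.nrm f () ()) =
    ∑ k, ∑ l, K.Gi l k * ((K.scol f l)ᴴ * K.Gi * K.scol f k) () ()
      + (K.Gi * hes W f * (K.Gi * hes W f)).trace
      + ((gv W f)ᴴ * K.Gi * K.Ric * K.Gi * gv W f) () ()
      + (((gv W (K.lap f))ᴴ * K.Gi * gv W f) () ()
        + ((gv W f)ᴴ * K.Gi * gv W (K.lap f)) () ()) := by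
  have h0 : ∀ k l, W.d k (W.db l (K.nrm f () ())) = W.D k (W.Db l (K.nrm f)) () () :=
    fun k l => rfl
  have h1 : ∑ k, ∑ l, K.Gi l k • ((gv W f)ᴴ * K.Gi * K.R k l * K.Gi * gv W f) =
      (gv W f)ᴴ * K.Gi * K.Ric * K.Gi * gv W f := by
    rw [K.Ric_eq]
    simp only [Matrix.mul_sum, Matrix.sum_mul, Matrix.mul_smul, Matrix.smul_mul]
  have h2 := K.sum_mul_gv_lap f ((gv W f)ᴴ * K.Gi)
  have h3 : ∑ k, ∑ l, K.Gi l k • (((W.D l (hcol W f k) - K.Ga l * hcol W f k))ᴴ * K.Gi * gv W f)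
      = (gv W (K.lap f))ᴴ * K.Gi * gv W f := by
    have e : (gv W (K.lap f))ᴴ * K.Gi * gv W f = ((gv W f)ᴴ * K.Gi * gv W (K.lap f))ᴴ := by
      rw [conjTranspose_mul, conjTranspose_mul, conjTranspose_conjTranspose, K.herm_inv,
        ← Matrix.mul_assoc]
    rw [e, ← h2]
    simp only [conjTranspose_sum, conjTranspose_smul]
    rw [Finset.sum_comm]
    refine Finset.sum_congr rfl fun k _ => Finset.sum_congr rfl fun l _ => ?_
    have e2 : star (K.Gi l k) = K.Gi k l := by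
      have := congrFun (congrFun K.herm_inv k) l
      simpa only [conjTranspose_apply] using this
    rw [e2, conjTranspose_mul ((gv W f)ᴴ * K.Gi), conjTranspose_mul ((gv W f)ᴴ),
      conjTranspose_conjTranspose, K.herm_inv, ← Matrix.mul_assoc]
  have h1' := congrFun (congrFun h1 ()) ()
  have h2' := congrFun (congrFun h2 ()) ()
  have h3' := congrFun (congrFun h3 ()) ()
  simp only [Matrix.sum_apply, Matrix.smul_apply, smul_eq_mul] at h1' h2' h3'
  have h4 := K.sum_hcol hf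
  rw [lap]
  simp only [h0, K.D_Db_nrm, Matrix.add_apply, mul_add, Finset.sum_add_distrib]
  rw [h1', h2', h3', h4]

end KMet

end Vale.Agent.P272.K.P1
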